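import Vale.Agent.P011.E6.HitF2
import Vale.Agent.P011.E6O.Defs2

/-!
The elements of the group which are the identity on the two standard points are given by
automorphisms of the octonion algebra over the ground field.
-/

open NumberField

namespace Vale.Agent.P011.E6O

open Vale.Agent.P011.MPQ Vale.Agent.P011.D4 Vale.Agent.P011.D4.Oct Vale.Agent.P011.E6
open Vale.Agent.P011.E6.Alb

namespace H837

section gal

variable {k E : Type} [Field k] [NumberField k] [Field E] [NumberField E] [Algebra k E]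
  {ρ σ : E ≃ₐ[k] E} {lam : Eˣ} {g : Fin 3 → Eˣ} {al s : E} {a b c : kˣ}
  (H : Hyp ρ σ lam g al s a b c)

include H

/-- The elements which are fixed by `ρ` and by `σ` belong to the ground field. -/
theorem fix2 {t : E} (h1 : ρ t = t) (h2 : σ t = t) : ∃ r : k, algebraMap k E r = t := by
  have hf : FiniteDimensional k E := Module.finite_of_finrank_pos (by rw [H.h6]; norm_num)
  have hρ3 : orderOf ρ = 3 := by
    apply orderOf_eq_prime _ H.hρ
    ext x
    simpa [pow_succ] using H.ρ3 x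
  have hσ2 : orderOf σ = 2 := by
    apply orderOf_eq_prime _ H.hσ
    ext x
    simpa [pow_succ] using H.σ2 x
  let S : Subgroup (E ≃ₐ[k] E) := Subgroup.closure {ρ, σ}
  have hρS : ρ ∈ S := Subgroup.subset_closure (by simp)
  have hσS : σ ∈ S := Subgroup.subset_closure (by simp)
  have e1 := IntermediateField.finrank_fixedField_eq_card (F := k) (E := E) S
  have e2 := Module.finrank_mul_finrank k (IntermediateField.fixedField S : IntermediateField k E) E
  rw [e1, H.h6] at e2
  have d3 : 3 ∣ Nat.card S := by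
    have := orderOf_dvd_natCard (⟨ρ, hρS⟩ : S)
    rwa [Subgroup.orderOf_mk, hρ3] at this
  have d2 : 2 ∣ Nat.card S := by
    have := orderOf_dvd_natCard (⟨σ, hσS⟩ : S)
    rwa [Subgroup.orderOf_mk, hσ2] at this
  have d6 : 6 ∣ Nat.card S := by
    have := Nat.Coprime.mul_dvd_of_dvd_of_dvd (by norm_num : Nat.Coprime 3 2) d3 d2
    simpa using this
  have d6' : Nat.card S ∣ 6 := Dvd.intro_left _ e2
  have hc : Nat.card S = 6 := Nat.dvd_antisymm d6' d6
  rw [hc] at e2
  have e3 : Module.finrank k (IntermediateField.fixedField S : IntermediateField k E) = 1 := by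
    omega
  have e4 : IntermediateField.fixedField S = ⊥ := IntermediateField.finrank_eq_one_iff.mp e3
  have h3 : t ∈ IntermediateField.fixedField S := by
    rw [IntermediateField.mem_fixedField_iff]
    intro f hf
    induction hf using Subgroup.closure_induction with
    | mem x hx =>
      rcases hx with rfl | hx
      · exact h1
      · rw [Set.mem_singleton_iff] at hx
        rw [hx]; exact h2
    | one => rfl
    | mul x y _ _ hx hy => rw [AlgEquiv.mul_apply, hy, hx]
    | inv x _ hx =>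
      conv_lhs => rw [← hx]
      exact x.symm_apply_apply t
  rw [e4] at h3
  exact IntermediateField.mem_bot.mp h3

/-- The octonions which are fixed by `ρ` and by `σ` come from the ground field. -/
theorem exists_oup {z : OctL E a b c} (h1 : omap ρ z = z) (h2 : omap σ z = z) :
    ∃ w : Oct a b c, oup E w = z := by
  have hq : ∀ {a b : kˣ} {z : Qt (up E a) (up E b)}, qmap ρ z = z → qmap σ z = z →
      ∃ w : Qt a b, qup E w = z := by
    intro a b z hz hz'
    obtain ⟨r, hr⟩ := fix2 H (congrArg QuaternionAlgebra.re hz) (congrArg QuaternionAlgebra.re hz')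
    obtain ⟨i, hi⟩ := fix2 H (congrArg QuaternionAlgebra.imI hz)
      (congrArg QuaternionAlgebra.imI hz')
    obtain ⟨j, hj⟩ := fix2 H (congrArg QuaternionAlgebra.imJ hz)
      (congrArg QuaternionAlgebra.imJ hz')
    obtain ⟨l, hl⟩ := fix2 H (congrArg QuaternionAlgebra.imK hz)
      (congrArg QuaternionAlgebra.imK hz')
    exact ⟨⟨r, i, j, l⟩, QuaternionAlgebra.ext hr hi hj hl⟩
  obtain ⟨u, hu⟩ := hq (congrArg Oct.fst h1) (congrArg Oct.fst h2)
  obtain ⟨v, hv⟩ := hq (congrArg Oct.snd h1) (congrArg Oct.snd h2)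
  refine ⟨⟨u, v⟩, ?_⟩
  ext1
  · exact hu
  · exact hv

end gal

section inv

variable {k E : Type} [Field k] [Field E] [NeZero (2 : E)] [Algebra k E]
  {ρ σ : E ≃ₐ[k] E} {lam : Eˣ} {g : Fin 3 → Eˣ} {al s : E} {a b c : kˣ}
  {h : AlbL E a b c ≃ₗ[E] AlbL E a b c}

/-- An invariant linear functional gives a fixed element. -/
theorem fix_of_inv (hh : h ∈ GO ρ σ lam g a b c) {u : AlbL E a b c}
    (hv : ∀ y, tf (wt g (amap σ u)) (h y) = tf (wt g (amap σ u)) y) : h u = u := by
  apply amap_injective σ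
  apply eq_of_tf
  intro z
  obtain ⟨y, rfl⟩ : ∃ y, wt g (h y) = z := by
    refine ⟨h.symm (wt g⁻¹ z), ?_⟩
    rw [LinearEquiv.apply_symm_apply, wt_wt_inv]
  have h1 := hh.2.2 y u
  rw [her, her] at h1
  rw [tf_comm, h1, tf_comm (amap σ u), tf_wt, tf_wt, tf_comm y, tf_comm (h y), hv]

theorem tf_inv (hh : h ∈ GO ρ σ lam g a b c) {x x' : AlbL E a b c} (hx : h x = x)
    (hx' : h x' = x') (y : AlbL E a b c) : tf (cross x x') (h y) = tf (cross x x') y := by
  have h1 := tf_cross_map hh.1 x x' y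
  rwa [hx, hx'] at h1

omit [NeZero (2 : E)] in
theorem mul_gl (q : Qt (up E a) (up E b)) :
    (⟨q, 0⟩ * oup E (gl : Oct a b c) : OctL E a b c) = ⟨0, q⟩ := by
  rw [oup_gl]
  ext1
  · simp [gl]
  · simp [gl]

omit [NeZero (2 : E)] in
theorem al_ne (hal : al ^ 2 = algebraMap k E a) : al ≠ 0 := by
  rintro rfl
  have h1 : algebraMap k E (a : k) = 0 := by rw [← hal]; ring
  rw [map_eq_zero] at h1
  exact a.ne_zero h1

/-- The product of the two standard elements. -/
theorem star_mul_ep (hal : al ^ 2 = algebraMap k E a) :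
    star (em al : Qt (up E a) (up E b)) * ep al = ep al := by
  have h0 := al_ne hal
  have h2 : (2 : E) ≠ 0 := NeZero.ne 2
  have ha : ((up E a : Eˣ) : E) = al ^ 2 := hal.symm
  ext
  · simp only [QuaternionAlgebra.re_mul, QuaternionAlgebra.re_star, QuaternionAlgebra.imI_star,
      QuaternionAlgebra.imJ_star, QuaternionAlgebra.imK_star, ha]
    simp only [em, ep]
    field_simp
    ring
  · simp only [QuaternionAlgebra.imI_mul, QuaternionAlgebra.re_star, QuaternionAlgebra.imI_star,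
      QuaternionAlgebra.imJ_star, QuaternionAlgebra.imK_star]
    simp only [em, ep]
    field_simp
    ring
  · simp only [QuaternionAlgebra.imJ_mul, QuaternionAlgebra.re_star, QuaternionAlgebra.imI_star,
      QuaternionAlgebra.imJ_star, QuaternionAlgebra.imK_star, ha]
    simp only [em, ep]
    ring
  · simp only [QuaternionAlgebra.imK_mul, QuaternionAlgebra.re_star, QuaternionAlgebra.imI_star,
      QuaternionAlgebra.imJ_star, QuaternionAlgebra.imK_star]
    simp only [em, ep]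
    ring

/-- The product of the two standard elements. -/
theorem star_mul_em (hal : al ^ 2 = algebraMap k E a) :
    star (ep al : Qt (up E a) (up E b)) * em al = em al := by
  have h0 := al_ne hal
  have h2 : (2 : E) ≠ 0 := NeZero.ne 2
  have ha : ((up E a : Eˣ) : E) = al ^ 2 := hal.symm
  ext
  · simp only [QuaternionAlgebra.re_mul, QuaternionAlgebra.re_star, QuaternionAlgebra.imI_star,
      QuaternionAlgebra.imJ_star, QuaternionAlgebra.imK_star, ha]
    simp only [em, ep]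
    field_simp
    ring
  · simp only [QuaternionAlgebra.imI_mul, QuaternionAlgebra.re_star, QuaternionAlgebra.imI_star,
      QuaternionAlgebra.imJ_star, QuaternionAlgebra.imK_star]
    simp only [em, ep]
    field_simp
    ring
  · simp only [QuaternionAlgebra.imJ_mul, QuaternionAlgebra.re_star, QuaternionAlgebra.imI_star,
      QuaternionAlgebra.imJ_star, QuaternionAlgebra.imK_star, ha]
    simp only [em, ep]
    ring
  · simp only [QuaternionAlgebra.imK_mul, QuaternionAlgebra.re_star, QuaternionAlgebra.imI_star,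
      QuaternionAlgebra.imJ_star, QuaternionAlgebra.imK_star]
    simp only [em, ep]
    ring

theorem ep_add_em : (ep al : Qt (up E a) (up E b)) + em al = 1 := by
  have h2 : (2 : E) ≠ 0 := NeZero.ne 2
  ext
  · simp only [QuaternionAlgebra.re_add, QuaternionAlgebra.re_one]
    simp only [em, ep]
    field_simp
    norm_num
  · simp only [QuaternionAlgebra.imI_add, QuaternionAlgebra.imI_one]
    simp only [em, ep]
    ring
  · simp only [QuaternionAlgebra.imJ_add, QuaternionAlgebra.imJ_one]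
    simp only [em, ep]
    ring
  · simp only [QuaternionAlgebra.imK_add, QuaternionAlgebra.imK_one]
    simp only [em, ep]
    ring

theorem mul_sum (hal : al ^ 2 = algebraMap k E a) :
    (⟨0, ep al⟩ * ⟨0, em al⟩ + ⟨0, em al⟩ * ⟨0, ep al⟩ : OctL E a b c) =
      ((up E c : Eˣ) : E) • 1 := by
  ext1
  · rw [fst_add, fst_mul, fst_mul, fst_smul, fst_one]
    simp only [mul_zero, zero_add]
    rw [star_mul_ep hal, star_mul_em hal, ← smul_add, ep_add_em]
  · simp

theorem bil_ne (hal : al ^ 2 = algebraMap k E a) :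
    bil (⟨0, ep al⟩ : OctL E a b c) ⟨0, em al⟩ = -((up E c : Eˣ) : E) := by
  have h1 := mul_star_add (⟨0, ep al⟩ : OctL E a b c) ⟨0, em al⟩
  have h2 : ∀ q : Qt (up E a) (up E b), star (⟨0, q⟩ : OctL E a b c) = -⟨0, q⟩ := by
    intro q
    ext1
    · simp
    · simp
  rw [h2, h2, mul_neg, mul_neg, ← neg_add, mul_sum hal, ← neg_smul] at h1
  exact (smul_one_inj h1).symm

/-- The elements of the group which are the identity on the two standard points fix the diagonal
idempotents and the units. -/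
theorem fix_units (hal : al ^ 2 = algebraMap k E a) (hh : h ∈ GO ρ σ lam g a b c)
    (hA : ∀ x ∈ Pw al (gl : Oct a b c), h x = x) (hA' : ∀ x ∈ Pm al (gl : Oct a b c), h x = x) :
    h e1 = e1 ∧ h e2 = e2 ∧ h e3 = e3 ∧ h ⟨0, 0, 0, 1, 0, 0⟩ = ⟨0, 0, 0, 1, 0, 0⟩ ∧
      h ⟨0, 0, 0, 0, 1, 0⟩ = ⟨0, 0, 0, 0, 1, 0⟩ := by
  set X : OctL E a b c := ⟨0, ep al⟩ with hX
  set Y : OctL E a b c := ⟨0, em al⟩ with hY
  have hXY : X * Y + Y * X = ((up E c : Eˣ) : E) • 1 := mul_sum hal
  have hb : bil X Y = -((up E c : Eˣ) : E) := bil_ne hal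
  have hc : ((up E c : Eˣ) : E) ≠ 0 := Units.ne_zero _
  have kX : ∀ r : Fin 3 → E, h ⟨0, 0, 0, r 0 • X, r 1 • X, r 2 • X⟩ =
      ⟨0, 0, 0, r 0 • X, r 1 • X, r 2 • X⟩ := by
    intro r
    apply hA
    refine ⟨r, ?_⟩
    rw [mul_gl]
  have kY : ∀ r : Fin 3 → E, h ⟨0, 0, 0, r 0 • Y, r 1 • Y, r 2 • Y⟩ =
      ⟨0, 0, 0, r 0 • Y, r 1 • Y, r 2 • Y⟩ := by
    intro r
    apply hA'
    refine ⟨r, ?_⟩
    rw [mul_gl]
  have X1 : h ⟨0, 0, 0, X, 0, 0⟩ = ⟨0, 0, 0, X, 0, 0⟩ := by simpa using kX ![1, 0, 0]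
  have X2 : h ⟨0, 0, 0, 0, X, 0⟩ = ⟨0, 0, 0, 0, X, 0⟩ := by simpa using kX ![0, 1, 0]
  have X3 : h ⟨0, 0, 0, 0, 0, X⟩ = ⟨0, 0, 0, 0, 0, X⟩ := by simpa using kX ![0, 0, 1]
  have Y1 : h ⟨0, 0, 0, Y, 0, 0⟩ = ⟨0, 0, 0, Y, 0, 0⟩ := by simpa using kY ![1, 0, 0]
  have Y2 : h ⟨0, 0, 0, 0, Y, 0⟩ = ⟨0, 0, 0, 0, Y, 0⟩ := by simpa using kY ![0, 1, 0]
  have Y3 : h ⟨0, 0, 0, 0, 0, Y⟩ = ⟨0, 0, 0, 0, 0, Y⟩ := by simpa using kY ![0, 0, 1]
  refine ⟨?_, ?_, ?_, ?_, ?_⟩
  · apply fix_of_inv hh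
    intro y
    have e : wt g (amap σ (e1 : AlbL E a b c)) = ((g 0 : E) ^ 2 * ((up E c : Eˣ) : E)⁻¹) •
        cross ⟨0, 0, 0, X, 0, 0⟩ ⟨0, 0, 0, Y, 0, 0⟩ := by
      apply Alb.ext <;> simp [cross, wt, amap, e1, hb]
    rw [e, tf_smul_left, tf_smul_left, tf_inv hh X1 Y1]
  · apply fix_of_inv hh
    intro y
    have e : wt g (amap σ (e2 : AlbL E a b c)) = ((g 1 : E) ^ 2 * ((up E c : Eˣ) : E)⁻¹) •
        cross ⟨0, 0, 0, 0, X, 0⟩ ⟨0, 0, 0, 0, Y, 0⟩ := by
      apply Alb.ext <;> simp [cross, wt, amap, e2, hb]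
    rw [e, tf_smul_left, tf_smul_left, tf_inv hh X2 Y2]
  · apply fix_of_inv hh
    intro y
    have e : wt g (amap σ (e3 : AlbL E a b c)) = ((g 2 : E) ^ 2 * ((up E c : Eˣ) : E)⁻¹) •
        cross ⟨0, 0, 0, 0, 0, X⟩ ⟨0, 0, 0, 0, 0, Y⟩ := by
      apply Alb.ext <;> simp [cross, wt, amap, e3, hb]
    rw [e, tf_smul_left, tf_smul_left, tf_inv hh X3 Y3]
  · apply fix_of_inv hh
    intro y
    have e : wt g (amap σ (⟨0, 0, 0, 1, 0, 0⟩ : AlbL E a b c)) =
        ((g 1 : E) * g 2 * ((up E c : Eˣ) : E)⁻¹) •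
        (cross ⟨0, 0, 0, 0, X, 0⟩ ⟨0, 0, 0, 0, 0, Y⟩ +
          cross ⟨0, 0, 0, 0, 0, X⟩ ⟨0, 0, 0, 0, Y, 0⟩) := by
      have e1 : (cross ⟨0, 0, 0, 0, X, 0⟩ ⟨0, 0, 0, 0, 0, Y⟩ +
          cross ⟨0, 0, 0, 0, 0, X⟩ ⟨0, 0, 0, 0, Y, 0⟩ : AlbL E a b c) =
          ⟨0, 0, 0, ((up E c : Eˣ) : E) • 1, 0, 0⟩ := by
        apply Alb.ext
        · simp [cross]
        · simp [cross]
        · simp [cross]
        · simp only [cross, x1_add, mul_zero, zero_mul, add_zero, zero_add, zero_smul, sub_zero]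
          rw [← star_add, hXY, star_smul_oct, star_one]
        · simp [cross]
        · simp [cross]
      rw [e1]
      apply Alb.ext <;> simp [wt, amap, omap_one, smul_smul]
    rw [e, tf_smul_left, tf_smul_left, tf_add_left, tf_add_left, tf_inv hh X2 Y3,
      tf_inv hh X3 Y2]
  · apply fix_of_inv hh
    intro y
    have e : wt g (amap σ (⟨0, 0, 0, 0, 1, 0⟩ : AlbL E a b c)) =
        ((g 2 : E) * g 0 * ((up E c : Eˣ) : E)⁻¹) •
        (cross ⟨0, 0, 0, 0, 0, X⟩ ⟨0, 0, 0, Y, 0, 0⟩ +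
          cross ⟨0, 0, 0, X, 0, 0⟩ ⟨0, 0, 0, 0, 0, Y⟩) := by
      have e1 : (cross ⟨0, 0, 0, 0, 0, X⟩ ⟨0, 0, 0, Y, 0, 0⟩ +
          cross ⟨0, 0, 0, X, 0, 0⟩ ⟨0, 0, 0, 0, 0, Y⟩ : AlbL E a b c) =
          ⟨0, 0, 0, 0, ((up E c : Eˣ) : E) • 1, 0⟩ := by
        apply Alb.ext
        · simp [cross]
        · simp [cross]
        · simp [cross]
        · simp [cross]
        · simp only [cross, x2_add, mul_zero, zero_mul, add_zero, zero_add, zero_smul, sub_zero]
          rw [← star_add, hXY, star_smul_oct, star_one]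
        · simp [cross]
      rw [e1]
      apply Alb.ext <;> simp [wt, amap, omap_one, smul_smul]
    rw [e, tf_smul_left, tf_smul_left, tf_add_left, tf_add_left, tf_inv hh X3 Y1,
      tf_inv hh X1 Y3]

end inv

end H837

section main

variable {k E : Type} [Field k] [NumberField k] [Field E] [NumberField E] [Algebra k E]
  {ρ σ : E ≃ₐ[k] E} {lam : Eˣ} {g : Fin 3 → Eˣ} {al s : E} {a b c : kˣ}
  (H : Hyp ρ σ lam g al s a b c)

include H

/-- The elements which are the identity on the two standard points. -/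
theorem end3 {h : AlbL E a b c ≃ₗ[E] AlbL E a b c} (hh : h ∈ GO ρ σ lam g a b c)
    (hA : ∀ x ∈ Pw al (gl : Oct a b c), h x = x) (hA' : ∀ x ∈ Pm al (gl : Oct a b c), h x = x) :
    ∃ f : AutC a b c, ∀ x : Alb a b c, h (aup E x) = aup E (Alb.omapA f.1 x) := by
  obtain ⟨h1, h2, h3, h4, h5⟩ := H837.fix_units H.al2 hh hA hA'
  obtain ⟨t, ht, hφt⟩ := exists_aut hh.1 h1 h2 h3 h4 h5
  have hρ : ∀ x, t (omap ρ x) = omap ρ (t x) := by
    intro x
    have e := hh.2.1 ⟨0, 0, 0, x, 0, 0⟩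
    rw [hφt, hφt] at e
    exact congrArg Alb.x2 e
  have hσ : ∀ x, t (omap σ x) = omap σ (t x) := by
    intro x
    apply eq_of_bil
    intro w
    obtain ⟨y, rfl⟩ := t.surjective w
    have h := hh.2.2 ⟨0, 0, 0, y, 0, 0⟩ ⟨0, 0, 0, x, 0, 0⟩
    rw [hφt, hφt] at h
    simp only [her, tf, omapA, wt, amap, map_zero, mul_zero, smul_zero, bil_zero_left,
      add_zero, zero_add, bil_smul_left] at h
    have h0 : (g 1 : E) * (g 2 : E) ≠ 0 :=
      mul_ne_zero (Units.ne_zero _) (Units.ne_zero _)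
    have h1 := mul_left_cancel₀ h0 h
    rw [hom_bil ht, bil_comm, ← h1, bil_comm]
  have k1 : ∀ x : Oct a b c, ∃ y : Oct a b c, oup E y = t (oup E x) := fun x =>
    H837.exists_oup H (by rw [← hρ, omap_oup]) (by rw [← hσ, omap_oup])
  have k2 : ∀ x : Oct a b c, ∃ y : Oct a b c, oup E y = t.symm (oup E x) := fun x =>
    H837.exists_oup H (by
      apply t.injective
      rw [hρ, LinearEquiv.apply_symm_apply, omap_oup]) (by
      apply t.injective
      rw [hσ, LinearEquiv.apply_symm_apply, omap_oup])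
  choose f hf using k1
  choose f' hf' using k2
  have hadd : ∀ x y, f (x + y) = f x + f y := by
    intro x y
    apply oup_injective (K := E)
    rw [hf, oup_add, oup_add, map_add, hf, hf]
  have hsmul : ∀ (r : k) (x), f (r • x) = r • f x := by
    intro r x
    apply oup_injective (K := E)
    rw [hf, oup_smul, oup_smul, map_smul, hf]
  have hl : ∀ x, f' (f x) = x := by
    intro x
    apply oup_injective (K := E)
    rw [hf', hf, LinearEquiv.symm_apply_apply]
  have hr' : ∀ x, f (f' x) = x := by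
    intro x
    apply oup_injective (K := E)
    rw [hf, hf', LinearEquiv.apply_symm_apply]
  have hmul : ∀ x y, f (x * y) = f x * f y := by
    intro x y
    apply oup_injective (K := E)
    rw [hf, oup_mul, oup_mul, ht, hf, hf]
  refine ⟨⟨{ toFun := f, invFun := f', left_inv := hl, right_inv := hr', map_add' := hadd,
             map_smul' := hsmul }, hmul⟩, fun x => ?_⟩
  rw [hφt]
  simp only [omapA, aup]
  rw [← hf, ← hf, ← hf]
  rfl

end main

end Vale.Agent.P011.E6O
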